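import Vale.Agent.P150.HT.Order

namespace Vale.Agent.Results.P150.MixingTimeOrder

open Vale.Agent.P150 MeasureTheory

/-- For every `β > 0` the mixing time is at least of order `log N`; for every `0 < β < 1/2` it is
also at most of that order and the spectral gap is of order one; all with probability tending to
one. -/
theorem result :
    (∀ β : ℝ, 0 < β → ∃ c : ℝ, 0 < c ∧
      Filter.Tendsto (fun N : ℕ => (disorder N).real {g |
        ¬ ∀ t : ℝ, 0 ≤ t → t ≤ c * Real.log N → ∃ x, 1 / 4 < tvDist β g t x})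
        Filter.atTop (nhds 0)) ∧
    (∀ β : ℝ, 0 < β → β < 1 / 2 → ∃ C : ℝ, 0 < C ∧
      Filter.Tendsto (fun N : ℕ => (disorder N).real {g |
        ¬ ((1 / C ≤ spectralGap β g ∧ spectralGap β g ≤ 1) ∧
          ∀ t : ℝ, C * Real.log N ≤ t → ∀ x, tvDist β g t x ≤ 1 / 4)})
        Filter.atTop (nhds 0)) :=
  ⟨fun _ h => HT.slow_log h, fun _ h0 h1 => HT.fast_mixing h0 h1⟩

end Vale.Agent.Results.P150.MixingTimeOrder
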