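import Vale.Agent.P150.Crit.Main

namespace Vale.Agent.Results.P150.SlowMixingBetaGeOne

open Vale.Agent.P150 MeasureTheory

/-- Slow mixing for every `β ≥ 1`: the gap is at most `C (log N)^2 / N` for `β > 1` and at most
`C / N ^ (1/6)` for `β = 1`, with high probability; likewise for the mixing time. -/
theorem result :
    (∀ β : ℝ, 1 < β → ∃ C : ℝ, 0 < C ∧ ∀ N : ℕ, 2 ≤ N →
      (disorder N).real {g | ¬ (spectralGap β g ≤ C * Real.log N ^ 2 / N ∧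
        ∀ t : ℝ, 0 ≤ t → t < N / (C * Real.log N ^ 2) → ∃ x, 1 / 4 < tvDist β g t x)} ≤ C / N) ∧
    (∃ C : ℝ, 0 < C ∧ ∀ N : ℕ, 2 ≤ N →
      (disorder N).real {g | ¬ (spectralGap 1 g ≤ C / (N : ℝ) ^ (1 / 6 : ℝ) ∧
        ∀ t : ℝ, 0 ≤ t → t < (N : ℝ) ^ (1 / 6 : ℝ) / C → ∃ x, 1 / 4 < tvDist 1 g t x)}
        ≤ C / (N : ℝ) ^ (1 / 30 : ℝ)) :=
  ⟨fun _ hβ => slow_mixing hβ, slow_mixing_crit⟩

end Vale.Agent.Results.P150.SlowMixingBetaGeOne
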